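import Crest.Agent.R27.A.Basic
import Crest.Agent.R17.B.All

/-!
Row 27, bundled form of the abstract structure (owner helper11).

`variable [Bd]` gives a ring `O` with `Ab.Abs O`.  Inside `namespace Crest.Agent.R27.Z` (with `open Crest.Agent.R27.Ab`)
`nm`, `nN`, `Prim`, `mu`, `sx`, … are NOTATION for `Ab.nm (R := O)`, …: the coercion `Pr → O` fires, every lemma of
`R27/A/*` applies by `rw`/`simp`, and the code of `R17` ports verbatim (write `unfold Ab.nm`, `simp [Ab.nm]`).
A statement over an arbitrary `R` follows by `letI : Z.Bd := ⟨R⟩`.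
-/

set_option autoImplicit false

namespace Crest.Agent.R27.Z

/-- the bundled structure -/
class Bd : Type 1 where
  R : Type
  [cr : CommRing R]
  [dom : IsDomain R]
  [pid : IsPrincipalIdealRing R]
  [abs : Ab.Abs R]

attribute [instance_reducible, instance] Bd.cr
attribute [instance] Bd.dom Bd.pid
attribute [instance_reducible, instance] Bd.abs

/-- the ring -/
abbrev O [A : Bd] : Type := A.R

/-- the primary elements -/
abbrev Pr [Bd] : Submonoid O := Ab.Pr O

/-- the class group -/
abbrev Cl [Bd] : Type := Ab.Cl O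

scoped notation "nN" => Ab.nN (R := O)
scoped notation "nm" => Ab.nm (R := O)
scoped notation "Prim" => Ab.Prim (R := O)
scoped notation "mu" => Ab.mu (R := O)
scoped notation "sx" => Ab.sx (R := O)
scoped notation "cb" => Ab.cb (R := O)
scoped notation "al" => Ab.al (R := O)
scoped notation "cls" => Ab.cls (R := O)
scoped notation "gt" => Ab.gt (R := O)
scoped notation "g3" => Ab.g3 (R := O)
scoped notation "gs" => Ab.gs (R := O)
scoped notation "gam" => Ab.gam (R := O)
scoped notation "FT" => Ab.FT (R := O)
scoped notation "eQ" => Ab.eQ (R := O)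
scoped notation "rsum" => Ab.rsum (R := O)
scoped notation "Per" => Ab.Per (R := O)
scoped notation "UInv" => Ab.UInv (R := O)
scoped notation "tau0" => Ab.tau0 (R := O)
scoped notation "gw" => Ab.gw (R := O)
scoped notation "one" => Ab.one (R := O)

/-- the weight -/
noncomputable abbrev W [Bd] : ℝ → ℝ := Ab.Abs.W O

/-- the weight of the zero row -/
noncomputable abbrev w0 [Bd] : ℝ := Ab.Abs.w₀ O

theorem isW [Bd] : Ab.IsW O W w0 := Ab.Abs.isW

/-! monomorphic forms of the lemmas with explicit ring arguments (so that `n : Pr` is coerced) -/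

section
open scoped ComplexConjugate Classical
variable [Bd]

theorem nm_nonneg (n : O) : 0 ≤ nm n := Ab.nm_nonneg n
theorem nm_mul (a b : O) : nm (a * b) = nm a * nm b := Ab.nm_mul a b
theorem nN_mul (a b : O) : nN (a * b) = nN a * nN b := Ab.nN_mul a b
theorem nm_pow (a : O) (k : ℕ) : nm (a ^ k) = nm a ^ k := Ab.nm_pow a k
theorem nN_pow (a : O) (k : ℕ) : nN (a ^ k) = nN a ^ k := Ab.nN_pow a k
theorem norm_mu_le (n : O) : ‖mu n‖ ≤ 1 := Ab.norm_mu_le n
theorem conj_mu (n : O) : conj (mu n) = mu n := Ab.conj_mu n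
theorem mu_sq (n : O) : mu n ^ 2 = if Squarefree n then 1 else 0 := by convert Ab.mu_sq n
theorem mu_mul' (a b : O) : mu (a * b) = if IsCoprime a b then mu a * mu b else 0 := by convert Ab.mu_mul' a b
theorem norm_al_le (n : O) : ‖al n‖ ≤ 1 := Ab.norm_al_le n
theorem al_mul (a b : O) : al (a * b) = al a * al b := Ab.al_mul a b
theorem al_pow (a : O) (k : ℕ) : al (a ^ k) = al a ^ k := Ab.al_pow a k

end

end Crest.Agent.R27.Z
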