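import Crest.Agent.R27.Api.Prim

/-!
Row 27, generic API (port of `R17/A/Count`; owner helper11): counting lemmas for finite sets of PRIMARY elements.
-/

set_option autoImplicit false

namespace Crest.Agent.R27.Z

open scoped ComplexConjugate
open Crest.Agent.R17 (ctb_cover cta_pow_le)

open Crest.Agent.R27.Ab

variable [Bd]

/-- the counting constant -/
noncomputable def cc : ℝ := max (Exists.choose (Abs.count : Count O)) 1

theorem one_le_cc : 1 ≤ cc := le_max_right _ _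

theorem cc_pos : 0 < cc := one_pos.trans_le one_le_cc

theorem card_le_of_nm_le {X : ℝ} (hX : 0 ≤ X) {A : Finset O} (h : ∀ n ∈ A, Prim n ∧ nm n ≤ X) :
    (A.card : ℝ) ≤ cc * X := by
  by_cases h1 : 1 ≤ X
  · exact (Exists.choose_spec (Abs.count : Count O) X A h1 h).trans
      (mul_le_mul_of_nonneg_right (le_max_left _ _) hX)
  · have : A = ∅ := Finset.eq_empty_of_forall_notMem fun n hn =>
      h1 ((one_le_nm (h n hn).1.ne_zero).trans (h n hn).2)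
    rw [this, Finset.card_empty, Nat.cast_zero]
    exact mul_nonneg cc_pos.le hX

theorem card_ball_le {X : ℝ} (hX : 0 ≤ X) : ((ball X).card : ℝ) ≤ cc * X :=
  card_le_of_nm_le hX fun _ hn => mem_ball.1 hn

/-- multiples of `d` -/
theorem card_dvd_le {X : ℝ} (hX : 0 ≤ X) {d : O} (hd : Prim d) {A : Finset O}
    (h : ∀ n ∈ A, Prim n ∧ d ∣ n ∧ nm n ≤ X) : (A.card : ℝ) ≤ cc * X / nm d := by
  classical
  have hd0 := nm_pos hd.ne_zero
  have h1 : A ⊆ (ball (X / nm d)).image (d * ·) := fun n hn => by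
    obtain ⟨h0, ⟨m, rfl⟩, h2⟩ := h n hn
    refine Finset.mem_image_of_mem _ (mem_ball.2 ⟨hd.of_mul h0, ?_⟩)
    rwa [le_div_iff₀ hd0, mul_comm, ← nm_mul]
  have h2 := card_ball_le (X := X / nm d) (by positivity)
  rw [mul_div_assoc]
  refine le_trans ?_ h2
  exact_mod_cast (Finset.card_le_card h1).trans Finset.card_image_le

theorem cta_log {n : O} (hn : n ≠ 0) :
    (2 : ℝ) ^ Nat.log 2 (nN n) ≤ nm n ∧ nm n ≤ 2 ^ (Nat.log 2 (nN n) + 1) := by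
  have h1 := Nat.pow_log_le_self 2 (mt nN_eq_zero.1 hn)
  have h2 := (Nat.lt_pow_succ_log_self one_lt_two (nN n)).le
  unfold Ab.nm
  exact ⟨by exact_mod_cast h1, by exact_mod_cast h2⟩

/-- dyadic decomposition -/
theorem cta_dyadic {A : Finset O} (hA : ∀ n ∈ A, Prim n) (f : O → ℝ) (g : ℕ → ℝ)
    (hg : ∀ i, 0 ≤ g i) (hf : ∀ n ∈ A, f n ≤ g (Nat.log 2 (nN n))) (S : Finset ℕ)
    (hS : ∀ n ∈ A, Nat.log 2 (nN n) ∈ S) : ∑ n ∈ A, f n ≤ ∑ i ∈ S, 2 * cc * (2 ^ i * g i) := by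
  rw [← Finset.sum_fiberwise_of_maps_to hS]
  refine Finset.sum_le_sum fun i _ => ?_
  have h1 := card_le_of_nm_le (X := 2 ^ (i + 1)) (by positivity)
    (A := A.filter fun n => Nat.log 2 (nN n) = i) fun n hn => by
      obtain ⟨h2, rfl⟩ := Finset.mem_filter.1 hn
      exact ⟨hA n h2, (cta_log (hA n h2).ne_zero).2⟩
  calc _ ≤ (A.filter fun n => Nat.log 2 (nN n) = i).card • g i :=
        Finset.sum_le_card_nsmul _ _ _ fun n hn => by
          obtain ⟨h2, rfl⟩ := Finset.mem_filter.1 hn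
          exact hf n h2
    _ ≤ cc * 2 ^ (i + 1) * g i := by
        rw [nsmul_eq_mul]; exact mul_le_mul_of_nonneg_right h1 (hg i)
    _ = _ := by ring

theorem cta_range {X : ℝ} {n : O} (h : nm n ≤ X) :
    Nat.log 2 (nN n) ∈ Finset.range (Nat.log 2 ⌊X⌋₊ + 1) :=
  Finset.mem_range.2 (Nat.lt_succ_of_le (Nat.log_mono_right (Nat.le_floor h)))

theorem sum_inv_nm_le {X : ℝ} (hX : 1 ≤ X) {A : Finset O} (h : ∀ n ∈ A, Prim n ∧ nm n ≤ X) :
    ∑ n ∈ A, (nm n)⁻¹ ≤ 4 * cc * (1 + Real.log X) := by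
  classical
  refine (cta_dyadic (fun n hn => (h n hn).1) _ (fun i => (2 ^ i)⁻¹)
    (fun i => by positivity)
    (fun n hn => inv_anti₀ (by positivity) (cta_log (h n hn).1.ne_zero).1) _
    fun n hn => cta_range (h n hn).2).trans ?_
  have e : ∀ i : ℕ, 2 * cc * ((2 : ℝ) ^ i * (2 ^ i)⁻¹) = 2 * cc := fun i => by field_simp
  simp only [e, Finset.sum_const, Finset.card_range, nsmul_eq_mul]
  have h1 := Real.log_le_log (by positivity) (cta_pow_le hX)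
  rw [Real.log_pow] at h1
  have h2 := Real.log_two_gt_d9
  have h3 : (0 : ℝ) ≤ Nat.log 2 ⌊X⌋₊ := Nat.cast_nonneg _
  have h4 : (Nat.log 2 ⌊X⌋₊ : ℝ) + 1 ≤ 2 * (1 + Real.log X) := by nlinarith
  have h5 := mul_le_mul_of_nonneg_right h4 (show 0 ≤ 2 * cc by linarith [cc_pos])
  push_cast
  linarith

theorem cta_tail {σ : ℝ} (hσ : 1 < σ) : ∃ C : ℝ, 0 < C ∧ ∀ (X : ℝ) (A : Finset O), 0 < X →
    (∀ n ∈ A, Prim n ∧ X ≤ nm n) → ∑ n ∈ A, nm n ^ (-σ) ≤ C * X ^ (1 - σ) := by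
  set r : ℝ := 2 ^ (1 - σ) with hr
  have hr0 : 0 < r := by positivity
  have hr1 : r < 1 := Real.rpow_lt_one_of_one_lt_of_neg one_lt_two (by linarith)
  have hr2 : 0 < 1 - r := by linarith
  have e : ∀ i : ℕ, ((2 : ℝ) ^ i) ^ (1 - σ) = r ^ i := fun i => by
    rw [hr, ← Real.rpow_natCast, ← Real.rpow_natCast, ← Real.rpow_mul zero_le_two,
      ← Real.rpow_mul zero_le_two, mul_comm]
  have hc := cc_pos
  refine ⟨2 * cc / (r * (1 - r)), by positivity, fun X A hX h => ?_⟩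
  have hA : ∀ n ∈ A, Prim n := fun n hn => (h n hn).1
  rcases A.eq_empty_or_nonempty with rfl | hne
  · rw [Finset.sum_empty]; positivity
  obtain ⟨n₀, hn₀, hmin⟩ := A.exists_min_image (fun n => Nat.log 2 (nN n)) hne
  obtain ⟨n₁, -, hmax⟩ := A.exists_max_image (fun n => Nat.log 2 (nN n)) hne
  refine (cta_dyadic hA _ (fun i => ((2 : ℝ) ^ i) ^ (-σ)) (fun i => by positivity)
    (fun n hn => Real.rpow_le_rpow_of_nonpos (by positivity) (cta_log (hA n hn).ne_zero).1 (by linarith))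
    (Finset.Ico (Nat.log 2 (nN n₀)) (Nat.log 2 (nN n₁) + 1))
    fun n hn => Finset.mem_Ico.2 ⟨hmin n hn, Nat.lt_succ_of_le (hmax n hn)⟩).trans ?_
  have e2 : ∀ i : ℕ, (2 : ℝ) ^ i * ((2 : ℝ) ^ i) ^ (-σ) = r ^ i := fun i => by
    rw [← e, sub_eq_add_neg, Real.rpow_add (by positivity), Real.rpow_one]
  simp only [e2, ← Finset.mul_sum]
  have h1 := geom_sum_Ico_le_of_lt_one (m := Nat.log 2 (nN n₀)) (n := Nat.log 2 (nN n₁) + 1)
    hr0.le hr1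
  have h2 : r ^ (Nat.log 2 (nN n₀) + 1) ≤ X ^ (1 - σ) := by
    rw [← e]
    exact Real.rpow_le_rpow_of_nonpos hX ((h n₀ hn₀).2.trans (cta_log (hA n₀ hn₀).ne_zero).2) (by linarith)
  calc _ ≤ 2 * cc * (r ^ Nat.log 2 (nN n₀) / (1 - r)) := by gcongr
    _ = 2 * cc / (r * (1 - r)) * r ^ (Nat.log 2 (nN n₀) + 1) := by field_simp; ring
    _ ≤ _ := by gcongr

theorem summable_nm_rpow {σ : ℝ} (hσ : 1 < σ) : Summable fun n : Pr => nm n ^ (-σ) := by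
  classical
  obtain ⟨C, -, hC⟩ := cta_tail hσ
  refine summable_of_sum_le (c := C * 1 ^ (1 - σ))
    (fun n => Real.rpow_nonneg (nm_nonneg n) _) fun A => ?_
  have h := hC 1 (A.map (Function.Embedding.subtype _)) one_pos fun n hn => by
    obtain ⟨m, -, rfl⟩ := Finset.mem_map.1 hn
    exact ⟨m.2, one_le_nm (Pr_prim m).ne_zero⟩
  rwa [Finset.sum_map] at h

/-- a finite sum over primary elements is bounded by the sum over `Pr` -/
theorem sum_le_tsum_Pr {f : O → ℝ} (hf : Summable fun n : Pr => f n) (h0 : ∀ n, Prim n → 0 ≤ f n)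
    {A : Finset O} (hA : ∀ n ∈ A, Prim n) : ∑ n ∈ A, f n ≤ ∑' n : Pr, f n := by
  classical
  rw [← Finset.sum_subtype_of_mem f (p := fun n => n ∈ Pr) hA]
  exact hf.sum_le_tsum _ fun n _ => h0 n n.2

theorem sum_nm_rpow_le {σ : ℝ} (hσ : σ < 1) : ∃ C : ℝ, 0 < C ∧ ∀ (X : ℝ) (A : Finset O), 0 ≤ X →
    (∀ n ∈ A, Prim n ∧ nm n ≤ X) → ∑ n ∈ A, nm n ^ (-σ) ≤ C * X ^ (1 - σ) := by
  set r : ℝ := 2 ^ (1 - σ) with hr
  have hr1 : 1 < r := Real.one_lt_rpow one_lt_two (by linarith)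
  have hr0 : 0 < r := by positivity
  have hr2 : 0 < r - 1 := by linarith
  have e : ∀ i : ℕ, ((2 : ℝ) ^ i) ^ (1 - σ) = r ^ i := fun i => by
    rw [hr, ← Real.rpow_natCast, ← Real.rpow_natCast, ← Real.rpow_mul zero_le_two,
      ← Real.rpow_mul zero_le_two, mul_comm]
  have hc := cc_pos
  refine ⟨2 * cc * r ^ 2 / (r - 1), by positivity, fun X A hX h => ?_⟩
  rcases A.eq_empty_or_nonempty with rfl | ⟨n₀, hn₀⟩
  · rw [Finset.sum_empty]; positivity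
  have hX1 : 1 ≤ X := (one_le_nm (h n₀ hn₀).1.ne_zero).trans (h n₀ hn₀).2
  refine (cta_dyadic (fun n hn => (h n hn).1) _ (fun i => r ^ (i + 1) / 2 ^ i)
    (fun i => by positivity) (fun n hn => ?_) _ fun n hn => cta_range (h n hn).2).trans ?_
  · have h0 := nm_pos (h n hn).1.ne_zero
    obtain ⟨h1, h2⟩ := cta_log (h n hn).1.ne_zero
    rw [show -σ = (1 - σ) - 1 by ring, Real.rpow_sub_one h0.ne', ← e]
    gcongr
  have e2 : ∀ i : ℕ, 2 * cc * ((2 : ℝ) ^ i * (r ^ (i + 1) / 2 ^ i)) = 2 * cc * r * r ^ i := fun i => by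
    field_simp; ring
  simp only [e2, ← Finset.mul_sum]
  rw [geom_sum_eq hr1.ne']
  have h2 : r ^ Nat.log 2 ⌊X⌋₊ ≤ X ^ (1 - σ) := by
    rw [← e]
    exact Real.rpow_le_rpow (by positivity) (cta_pow_le hX1) (by linarith)
  calc _ ≤ 2 * cc * r * (r ^ (Nat.log 2 ⌊X⌋₊ + 1) / (r - 1)) := by gcongr; linarith
    _ = 2 * cc * r ^ 2 / (r - 1) * r ^ Nat.log 2 ⌊X⌋₊ := by field_simp; ring
    _ ≤ _ := by gcongr

theorem sum_nm_rpow_tail {σ : ℝ} (hσ : 1 < σ) : ∃ C : ℝ, 0 < C ∧ ∀ (X : ℝ) (A : Finset O), 0 < X →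
    (∀ n ∈ A, Prim n ∧ X ≤ nm n) → ∑ n ∈ A, nm n ^ (-σ) ≤ C * X ^ (1 - σ) :=
  cta_tail hσ

/-- `B ^ ω(n) ≪ N(n)^ε` -/
theorem pow_card_pfs_le (B : ℝ) {ε : ℝ} (hε : 0 < ε) : ∃ C : ℝ, 0 < C ∧ ∀ n : O, n ≠ 0 →
    |B| ^ (pfs n).card ≤ C * nm n ^ ε := by
  classical
  set M : ℝ := max |B| 1 with hM
  have hM1 : 1 ≤ M := le_max_right _ _
  refine ⟨M ^ (ball (M ^ ε⁻¹)).card, by positivity, fun n hn => ?_⟩
  have hp : ∀ p ∈ pfs n, |B| ≤ (if p ∈ ball (M ^ ε⁻¹) then M else 1) * nm p ^ ε := by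
    intro p hp
    have hp0 := ((mem_pfs hn).1 hp).1.ne_zero
    have h1 : 1 ≤ nm p ^ ε := Real.one_le_rpow (one_le_nm hp0) hε.le
    split_ifs with h
    · exact (le_max_left _ _).trans (le_mul_of_one_le_right (by linarith) h1)
    · rw [mem_ball, and_iff_right ((mem_pfs hn).1 hp).2.1, not_le] at h
      rw [one_mul]
      refine (le_max_left |B| 1).trans ?_
      calc M = (M ^ ε⁻¹) ^ ε := (Real.rpow_inv_rpow (by linarith) hε.ne').symm
        _ ≤ nm p ^ ε := Real.rpow_le_rpow (by positivity) h.le hε.le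
  calc |B| ^ (pfs n).card = ∏ _p ∈ pfs n, |B| := by simp
    _ ≤ ∏ p ∈ pfs n, (if p ∈ ball (M ^ ε⁻¹) then M else 1) * nm p ^ ε :=
        Finset.prod_le_prod (fun _ _ => abs_nonneg _) hp
    _ = M ^ ((pfs n).filter (· ∈ ball (M ^ ε⁻¹))).card * nm (rad n) ^ ε := by
        rw [Finset.prod_mul_distrib, ← Finset.prod_filter, Finset.prod_const, rad, nm_prod,
          Real.finsetProd_rpow _ _ fun p _ => nm_nonneg p]
    _ ≤ _ := by
        refine mul_le_mul (pow_le_pow_right₀ hM1 (Finset.card_le_card fun p hp =>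
          (Finset.mem_filter.1 hp).2)) (Real.rpow_le_rpow (nm_nonneg _)
          (nm_le_of_dvd (rad_dvd n) hn) hε.le) (Real.rpow_nonneg (nm_nonneg _) _) (by positivity)

theorem ctb_rankin {σ : ℝ} (hσ : 0 < σ) (S : Finset O) (hS : ∀ p ∈ S, Prim p ∧ 2 ≤ nm p) (A : Finset O)
    (hA : ∀ d ∈ A, Prim d ∧ ∀ r, Prime r → r ∣ d → ∃ p ∈ S, p ∣ r) :
    ∑ d ∈ A, nm d ^ (-σ) ≤ 1 * (1 - (2 : ℝ) ^ (-σ))⁻¹ ^ S.card := by
  classical
  have hr1 : (2 : ℝ) ^ (-σ) < 1 := Real.rpow_lt_one_of_one_lt_of_neg (by norm_num) (by linarith)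
  have hnn : ∀ d : O, 0 ≤ nm d ^ (-σ) := fun d => Real.rpow_nonneg (nm_nonneg d) _
  induction S using Finset.induction_on generalizing A with
  | empty =>
    refine (ctb_cover A {()} (fun _ => (1 : O)) _ hnn fun d hd => ?_).trans ?_
    · have hu : IsUnit d := by
        by_contra hu
        obtain ⟨r, hr, hrd⟩ := WfDvdMonoid.exists_irreducible_factor hu (hA d hd).1.ne_zero
        simpa using (hA d hd).2 r hr.prime hrd
      exact ⟨(), Finset.mem_singleton_self _, ((hA d hd).1.eq_one_of_isUnit hu).symm⟩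
    · simp
  | insert p S hp ih =>
    obtain ⟨hpp, hp2⟩ := hS p (Finset.mem_insert_self _ _)
    set X : ℝ := ∑ d ∈ A, nm d with hX
    set T : Finset O := (ball X).filter
      fun d => Prim d ∧ ∀ r, Prime r → r ∣ d → ∃ p' ∈ insert p S, p' ∣ r with hT
    have hAT : A ⊆ T := fun d hd => Finset.mem_filter.2
      ⟨mem_ball.2 ⟨(hA d hd).1, Finset.single_le_sum (f := nm) (fun d _ => nm_nonneg d) hd⟩, hA d hd⟩
    have h1 : ∑ d ∈ T.filter (fun d => ¬ p ∣ d), nm d ^ (-σ) ≤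
        1 * (1 - (2 : ℝ) ^ (-σ))⁻¹ ^ S.card := by
      refine ih (fun p' hp' => hS p' (Finset.mem_insert_of_mem hp')) _ fun d hd => ?_
      obtain ⟨hdT, hpd⟩ := Finset.mem_filter.1 hd
      obtain ⟨-, hd0, hd1⟩ := Finset.mem_filter.1 hdT
      refine ⟨hd0, fun r hr hrd => ?_⟩
      obtain ⟨p', hp', hp'r⟩ := hd1 r hr hrd
      rcases Finset.mem_insert.1 hp' with rfl | hp'
      · exact absurd (hp'r.trans hrd) hpd
      · exact ⟨p', hp', hp'r⟩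
    have h2 : ∑ d ∈ T.filter (fun d => p ∣ d), nm d ^ (-σ) ≤
        (2 : ℝ) ^ (-σ) * ∑ d ∈ T, nm d ^ (-σ) := by
      refine (ctb_cover _ T (fun d => p * d) _ hnn fun d hd => ?_).trans ?_
      · obtain ⟨hdT, m, rfl⟩ := Finset.mem_filter.1 hd
        obtain ⟨hdX, hd0, hd1⟩ := Finset.mem_filter.1 hdT
        refine ⟨m, Finset.mem_filter.2 ⟨mem_ball.2 ⟨hpp.of_mul hd0, (nm_le_of_dvd (dvd_mul_left m p) hd0.ne_zero).trans
          (mem_ball.1 hdX).2⟩, hpp.of_mul hd0, fun r hr hrm =>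
            hd1 r hr (hrm.mul_left p)⟩, rfl⟩
      · rw [Finset.mul_sum]
        refine Finset.sum_le_sum fun d _ => ?_
        rw [nm_mul, Real.mul_rpow (nm_nonneg _) (nm_nonneg _)]
        exact mul_le_mul_of_nonneg_right
          (Real.rpow_le_rpow_of_nonpos (by norm_num) hp2 (by linarith)) (hnn d)
    have h3 := Finset.sum_filter_add_sum_filter_not T (fun d => p ∣ d) fun d => nm d ^ (-σ)
    have h4 : ∑ d ∈ A, nm d ^ (-σ) ≤ ∑ d ∈ T, nm d ^ (-σ) :=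
      Finset.sum_le_sum_of_subset_of_nonneg hAT fun d _ _ => hnn d
    refine h4.trans ?_
    rw [Finset.card_insert_of_notMem hp, pow_succ, ← mul_assoc, le_mul_inv_iff₀ (by linarith)]
    linarith

theorem ctb_sum_smooth {σ ε : ℝ} (hσ : 0 < σ) (hε : 0 < ε) : ∃ C : ℝ, 0 < C ∧
    ∀ (D : O) (A : Finset O), D ≠ 0 → (∀ d ∈ A, Prim d ∧ ∃ k, d ∣ D ^ k) →
      ∑ d ∈ A, nm d ^ (-σ) ≤ C * nm D ^ ε := by
  classical
  obtain ⟨C, hC, h⟩ := pow_card_pfs_le (1 - (2 : ℝ) ^ (-σ))⁻¹ hε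
  refine ⟨C, hC, fun D A hD hA => ?_⟩
  have h1 := ctb_rankin hσ (pfs D) (fun p hp =>
    ⟨((mem_pfs hD).1 hp).2.1, two_le_nm ((mem_pfs hD).1 hp).1⟩) A fun d hd => by
      obtain ⟨h0, k, hk⟩ := hA d hd
      refine ⟨h0, fun r hr hrd => ?_⟩
      have hrD : r ∣ D := hr.dvd_of_dvd_pow (hrd.trans hk)
      obtain ⟨u, m, hu, hm, rfl⟩ := exists_unit_prim hr.ne_zero
      exact ⟨m, (mem_pfs hD).2
        ⟨(prime_isUnit_mul hu).1 hr, hm, (dvd_mul_left m u).trans hrD⟩, dvd_mul_left m u⟩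
  have hr1 : (2 : ℝ) ^ (-σ) < 1 := Real.rpow_lt_one_of_one_lt_of_neg (by norm_num) (by linarith)
  have h2 := h D hD
  rw [abs_of_nonneg (inv_nonneg.2 (by linarith))] at h2
  rw [one_mul] at h1
  exact h1.trans h2

theorem ctb_card_le {σ X : ℝ} (hσ : 0 ≤ σ) {A : Finset O} (hA : ∀ d ∈ A, d ≠ 0 ∧ nm d ≤ X) :
    (A.card : ℝ) ≤ X ^ σ * ∑ d ∈ A, nm d ^ (-σ) := by
  rw [Finset.mul_sum, Finset.card_eq_sum_ones]
  push_cast
  refine Finset.sum_le_sum fun d hd => ?_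
  have h0 := nm_pos (hA d hd).1
  rw [Real.rpow_neg h0.le, ← div_eq_mul_inv, one_le_div (Real.rpow_pos_of_pos h0 _)]
  exact Real.rpow_le_rpow h0.le (hA d hd).2 hσ

theorem ctb_card_smooth {ε : ℝ} (hε : 0 < ε) : ∃ C : ℝ, 0 < C ∧
    ∀ (D : O) (X : ℝ) (A : Finset O), D ≠ 0 → 1 ≤ X → (∀ d ∈ A, Prim d ∧ (∃ k, d ∣ D ^ k) ∧ nm d ≤ X) →
      (A.card : ℝ) ≤ C * (X * nm D) ^ ε := by
  obtain ⟨C, hC, h⟩ := ctb_sum_smooth hε hε
  refine ⟨C, hC, fun D X A hD hX hA => ?_⟩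
  have h1 := ctb_card_le (X := X) hε.le (A := A) fun d hd =>
    ⟨(hA d hd).1.ne_zero, (hA d hd).2.2⟩
  have h2 := h D A hD fun d hd => ⟨(hA d hd).1, (hA d hd).2.1⟩
  rw [Real.mul_rpow (by linarith) (nm_nonneg _)]
  calc _ ≤ X ^ ε * (C * nm D ^ ε) :=
        h1.trans (mul_le_mul_of_nonneg_left h2 (Real.rpow_nonneg (by linarith) _))
    _ = _ := by ring

theorem ctb_card_divisors {ε : ℝ} (hε : 0 < ε) : ∃ C : ℝ, 0 < C ∧ ∀ (n : O) (A : Finset O),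
    n ≠ 0 → (∀ d ∈ A, Prim d ∧ d ∣ n) → (A.card : ℝ) ≤ C * nm n ^ ε := by
  obtain ⟨C, hC, h⟩ := ctb_card_smooth (half_pos hε)
  refine ⟨C, hC, fun n A hn hA => ?_⟩
  have h1 := h n (nm n) A hn (one_le_nm hn) fun d hd =>
    ⟨(hA d hd).1, ⟨1, by simpa using (hA d hd).2⟩, nm_le_of_dvd (hA d hd).2 hn⟩
  rwa [Real.mul_rpow (nm_nonneg _) (nm_nonneg _), ← Real.rpow_add (nm_pos hn), add_halves] at h1

/-- divisor bound -/
theorem card_pdiv_le {ε : ℝ} (hε : 0 < ε) : ∃ C : ℝ, 0 < C ∧ ∀ n : O, n ≠ 0 →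
    ((pdiv n).card : ℝ) ≤ C * nm n ^ ε := by
  obtain ⟨C, hC, h⟩ := ctb_card_divisors hε
  exact ⟨C, hC, fun n hn => h n _ hn fun d hd => (mem_pdiv hn).1 hd⟩

/-- divisor bound, all divisors -/
theorem card_divisors_le {ε : ℝ} (hε : 0 < ε) : ∃ C : ℝ, 0 < C ∧ ∀ (n : O) (A : Finset O), n ≠ 0 →
    (∀ d ∈ A, Prim d ∧ d ∣ n) → (A.card : ℝ) ≤ C * nm n ^ ε := by
  exact ctb_card_divisors hε

/-- smooth numbers (Rankin) -/
theorem sum_smooth_le {σ ε : ℝ} (hσ : 0 < σ) (hε : 0 < ε) : ∃ C : ℝ, 0 < C ∧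
    ∀ (D : O) (A : Finset O), D ≠ 0 → (∀ d ∈ A, Prim d ∧ ∃ k, d ∣ D ^ k) →
      ∑ d ∈ A, nm d ^ (-σ) ≤ C * nm D ^ ε := by
  exact ctb_sum_smooth hσ hε

theorem card_smooth_le {ε : ℝ} (hε : 0 < ε) : ∃ C : ℝ, 0 < C ∧
    ∀ (D : O) (X : ℝ) (A : Finset O), D ≠ 0 → 1 ≤ X → (∀ d ∈ A, Prim d ∧ (∃ k, d ∣ D ^ k) ∧ nm d ≤ X) →
      (A.card : ℝ) ≤ C * (X * nm D) ^ ε := by
  exact ctb_card_smooth hε

theorem ctb_sqfull_eq (f : O) : Sqfull f → ∃ a c : O, f = a ^ 2 * c ^ 3 := by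
  refine UniqueFactorizationMonoid.induction_on_coprime
    (P := fun f => Sqfull f → ∃ a c : O, f = a ^ 2 * c ^ 3) f (fun _ => ⟨0, 0, by simp⟩) ?_ ?_ ?_
  · rintro _ ⟨u, rfl⟩ -
    refine ⟨(u⁻¹ : Oˣ), u, ?_⟩
    norm_cast
    group
  · intro p i hp h
    rcases Nat.even_or_odd' i with ⟨j, rfl | rfl⟩
    · exact ⟨p ^ j, 1, by ring⟩
    · rcases j with _ | j
      · exfalso
        have h1 := h p hp (by simp)
        simp only [mul_zero, zero_add, pow_one] at h1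
        exact hp.not_isUnit (hp.squarefree p (sq p ▸ h1))
      · exact ⟨p ^ j, p, by ring⟩
  · intro x y hxy hx hy h
    obtain ⟨a, c, rfl⟩ := hx fun p hp hpx =>
      hp.pow_dvd_of_dvd_mul_right 2 (fun hpy => hp.not_isUnit (hxy hpx hpy))
        (h p hp (hpx.mul_right y))
    obtain ⟨a', c', rfl⟩ := hy fun p hp hpy =>
      hp.pow_dvd_of_dvd_mul_left 2 (fun hpx => hp.not_isUnit (hxy hpx hpy))
        (h p hp (hpy.mul_left _))
    exact ⟨a * a', c * c', by ring⟩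

theorem ctb_sqfull_eq' (f : O) (hf : Prim f ∧ Sqfull f) :
    ∃ a c : O, Prim a ∧ Prim c ∧ f = a ^ 2 * c ^ 3 := by
  obtain ⟨a, c, h⟩ := ctb_sqfull_eq f hf.2
  have h0 := hf.1.ne_zero
  have ha : a ≠ 0 := fun h' => h0 (by rw [h, h']; simp)
  have hc : c ≠ 0 := fun h' => h0 (by rw [h, h']; simp)
  obtain ⟨u, a', hu, ha', rfl⟩ := exists_unit_prim ha
  obtain ⟨v, c', hv, hc', rfl⟩ := exists_unit_prim hc
  refine ⟨a', c', ha', hc', hf.1.eq_of_associated ((ha'.pow 2).mul (hc'.pow 3)) ?_⟩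
  rw [h, show (u * a') ^ 2 * (v * c') ^ 3 = (u ^ 2 * v ^ 3) * (a' ^ 2 * c' ^ 3) by ring]
  exact associated_unit_mul_left _ _ ((hu.pow 2).mul (hv.pow 3))

theorem ctb_sum_sqfull {θ : ℝ} (hθ : 0 < θ) : ∃ C : ℝ, 0 < C ∧ ∀ A : Finset O,
    (∀ f ∈ A, Prim f ∧ Sqfull f) → ∑ f ∈ A, nm f ^ (-(1 / 2 + θ)) ≤ C := by
  classical
  have s2 := summable_nm_rpow (σ := 2 * (1 / 2 + θ)) (by linarith)
  have s3 := summable_nm_rpow (σ := 3 * (1 / 2 + θ)) (by linarith)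
  have hnn : ∀ (d : O) (s : ℝ), 0 ≤ nm d ^ s := fun d s => Real.rpow_nonneg (nm_nonneg d) _
  refine ⟨(∑' n : Pr, nm n ^ (-(2 * (1 / 2 + θ)))) * (∑' n : Pr, nm n ^ (-(3 * (1 / 2 + θ)))) + 1,
    add_pos_of_nonneg_of_pos (mul_nonneg (tsum_nonneg fun _ => hnn _ _)
      (tsum_nonneg fun _ => hnn _ _)) one_pos, fun A hA => ?_⟩
  choose! a c ha hc hac using ctb_sqfull_eq'
  refine (ctb_cover A (A.image a ×ˢ A.image c) (fun x => x.1 ^ 2 * x.2 ^ 3) _ (fun d => hnn d _)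
    fun f hf => ⟨(a f, c f), Finset.mem_product.2 ⟨Finset.mem_image_of_mem _ hf,
      Finset.mem_image_of_mem _ hf⟩, (hac f (hA f hf)).symm⟩).trans ?_
  have e : ∀ x : O × O, nm (x.1 ^ 2 * x.2 ^ 3) ^ (-(1 / 2 + θ)) =
      nm x.1 ^ (-(2 * (1 / 2 + θ))) * nm x.2 ^ (-(3 * (1 / 2 + θ))) := by
    intro x
    rw [nm_mul, Real.mul_rpow (nm_nonneg _) (nm_nonneg _), nm_pow, nm_pow, ← Real.rpow_natCast,
      ← Real.rpow_natCast, ← Real.rpow_mul (nm_nonneg _), ← Real.rpow_mul (nm_nonneg _)]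
    congr 2 <;> push_cast <;> ring
  simp only [e]
  rw [Finset.sum_product' (f := fun x y : O =>
    nm x ^ (-(2 * (1 / 2 + θ))) * nm y ^ (-(3 * (1 / 2 + θ)))), ← Finset.sum_mul_sum]
  refine le_trans (mul_le_mul (sum_le_tsum_Pr (f := fun n => nm n ^ (-(2 * (1 / 2 + θ)))) s2
    (fun _ _ => hnn _ _) fun n hn => ?_)
    (sum_le_tsum_Pr (f := fun n => nm n ^ (-(3 * (1 / 2 + θ)))) s3 (fun _ _ => hnn _ _) fun n hn => ?_)
    (Finset.sum_nonneg fun _ _ => hnn _ _) (tsum_nonneg fun _ => hnn _ _)) (by linarith)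
  · obtain ⟨f, hf, rfl⟩ := Finset.mem_image.1 hn
    exact ha f (hA f hf)
  · obtain ⟨f, hf, rfl⟩ := Finset.mem_image.1 hn
    exact hc f (hA f hf)

theorem card_sqfull_le {ε : ℝ} (hε : 0 < ε) : ∃ C : ℝ, 0 < C ∧ ∀ (X : ℝ) (A : Finset O), 1 ≤ X →
    (∀ f ∈ A, Prim f ∧ Sqfull f ∧ nm f ≤ X) → (A.card : ℝ) ≤ C * X ^ (1 / 2 + ε) := by
  obtain ⟨C, hC, h⟩ := ctb_sum_sqfull hε
  refine ⟨C, hC, fun X A hX hA => ?_⟩
  have h1 := ctb_card_le (X := X) (σ := 1 / 2 + ε) (by linarith) (A := A) fun d hd =>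
    ⟨(hA d hd).1.ne_zero, (hA d hd).2.2⟩
  rw [mul_comm]
  exact h1.trans (mul_le_mul_of_nonneg_left (h A fun f hf => ⟨(hA f hf).1, (hA f hf).2.1⟩)
    (Real.rpow_nonneg (by linarith) _))

theorem sum_sqfull_le {ε : ℝ} (hε : 0 < ε) : ∃ C : ℝ, 0 < C ∧ ∀ (X : ℝ) (A : Finset O), 1 ≤ X →
    (∀ f ∈ A, Prim f ∧ Sqfull f ∧ nm f ≤ X) → ∑ f ∈ A, nm f ^ (-(1 / 2) : ℝ) ≤ C * X ^ ε := by
  obtain ⟨C, hC, h⟩ := ctb_sum_sqfull hε
  refine ⟨C, hC, fun X A hX hA => ?_⟩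
  refine le_trans ?_ (mul_le_mul_of_nonneg_right (h A fun f hf => ⟨(hA f hf).1, (hA f hf).2.1⟩)
    (Real.rpow_nonneg (by linarith) _))
  rw [Finset.sum_mul]
  refine Finset.sum_le_sum fun f hf => ?_
  have h0 := nm_pos (hA f hf).1.ne_zero
  calc nm f ^ (-(1 / 2) : ℝ) = nm f ^ (-(1 / 2 + ε)) * nm f ^ ε := by
        rw [← Real.rpow_add h0]
        congr 1
        ring
    _ ≤ _ := mul_le_mul_of_nonneg_left (Real.rpow_le_rpow h0.le (hA f hf).2.2 hε.le)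
        (Real.rpow_nonneg h0.le _)

theorem ctb_summable_Pr {f : O → ℝ} {C : ℝ} (h0 : ∀ n, 0 ≤ f n)
    (h : ∀ A : Finset O, (∀ n ∈ A, Prim n) → ∑ n ∈ A, f n ≤ C) : Summable fun n : Pr => f n := by
  refine summable_of_sum_le (c := C) (fun n => h0 n) fun A => ?_
  have := h (A.map (Function.Embedding.subtype _)) fun n hn => by
    obtain ⟨m, -, rfl⟩ := Finset.mem_map.1 hn
    exact m.2
  rwa [Finset.sum_map] at this

open Classical in
theorem summable_sqfull {θ : ℝ} (hθ : 0 < θ) :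
    Summable fun f : Pr => if Sqfull f then nm f ^ (-(1 / 2 + θ)) else 0 := by
  obtain ⟨C, -, h⟩ := ctb_sum_sqfull hθ
  refine ctb_summable_Pr (f := fun f => if Sqfull f then nm f ^ (-(1 / 2 + θ)) else 0) (C := C)
    (fun f => ?_) fun A hA => ?_
  · split_ifs
    · exact Real.rpow_nonneg (nm_nonneg _) _
    · exact le_rfl
  · rw [← Finset.sum_filter]
    exact h _ fun f hf => ⟨hA f (Finset.mem_filter.1 hf).1, (Finset.mem_filter.1 hf).2⟩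

open Classical in
theorem summable_smooth {D : O} (hD : D ≠ 0) {σ : ℝ} (hσ : 0 < σ) :
    Summable fun d : Pr => if ∃ k, (d : O) ∣ D ^ k then nm d ^ (-σ) else 0 := by
  obtain ⟨C, -, h⟩ := ctb_sum_smooth hσ one_pos
  refine ctb_summable_Pr (f := fun d => if ∃ k, d ∣ D ^ k then nm d ^ (-σ) else 0)
    (C := C * nm D ^ (1 : ℝ)) (fun f => ?_) fun A hA => ?_
  · split_ifs
    · exact Real.rpow_nonneg (nm_nonneg _) _
    · exact le_rfl
  · rw [← Finset.sum_filter]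
    exact h D _ hD fun f hf => ⟨hA f (Finset.mem_filter.1 hf).1, (Finset.mem_filter.1 hf).2⟩

end Crest.Agent.R27.Z
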