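import Crest.Agent.R27.Api.Count
import Crest.Agent.R27.A.Rsum

/-!
Row 27, bundled API (owner helper11): the row weight `gw` and Poisson summation over `O`.
-/

set_option autoImplicit false

namespace Crest.Agent.R27.Z

open scoped ComplexConjugate
open Crest.Agent.R27.Ab

variable [Bd]

theorem w0_pos : 0 < w0 := isW.w_pos

@[simp] theorem gw_zero (K : ℝ) : gw K 0 = w0 := if_pos rfl

theorem gw_prim (K : ℝ) {k : O} (hk : Prim k) : gw K k = W (nm k / K) := by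
  rw [Ab.gw, if_neg hk.ne_zero, if_pos hk]

theorem gw_of_not (K : ℝ) {k : O} (h0 : k ≠ 0) (hk : ¬ Prim k) : gw K k = 0 := by
  rw [Ab.gw, if_neg h0, if_neg hk]

theorem gw_nonneg (K : ℝ) (k : O) : 0 ≤ gw K k := by
  unfold Ab.gw
  split_ifs
  exacts [w0_pos.le, isW.nonneg _, le_rfl]

theorem gw_mul {K : ℝ} {d : O} (hd : Prim d) (k : O) : gw K (d * k) = gw (K / nm d) k := by
  by_cases h0 : k = 0
  · simp [h0]
  by_cases hk : Prim k
  · rw [gw_prim _ hk, gw_prim _ (hd.mul hk), nm_mul, div_div_eq_mul_div, mul_comm]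
  · rw [gw_of_not _ h0 hk, gw_of_not _ (mul_ne_zero hd.ne_zero h0) fun h => hk (hd.of_mul h)]

theorem gw_le_rpow {σ : ℝ} (hσ : 0 < σ) : ∃ C : ℝ, 0 < C ∧ ∀ (K : ℝ) (k : O), 0 < K → k ≠ 0 →
    gw K k ≤ C * K ^ σ * nm k ^ (-σ) := by
  obtain ⟨C, hC⟩ := isW.upper σ hσ
  refine ⟨max C 1, by positivity, fun K k hK h0 => ?_⟩
  have hp := nm_pos h0
  by_cases hk : Prim k
  · rw [gw_prim _ hk]
    refine (hC _ (by positivity)).trans ?_
    rw [Real.div_rpow hp.le hK.le, Real.rpow_neg hK.le, div_inv_eq_mul, mul_comm (nm k ^ (-σ)), mul_assoc]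
    exact mul_le_mul_of_nonneg_right (le_max_left _ _) (by positivity)
  · rw [gw_of_not _ h0 hk]
    positivity

theorem exists_cE : ∃ c : ℝ, 1 ≤ c ∧ ∀ (K : ℝ) (k : O), 0 < K → Prim k → nm k ≤ K → 1 ≤ c * gw K k := by
  obtain ⟨c, hc, h⟩ := isW.lower
  refine ⟨max c⁻¹ 1, le_max_right _ _, fun K k hK hk hkK => ?_⟩
  have hp := nm_pos hk.ne_zero
  rw [gw_prim _ hk]
  calc 1 = c⁻¹ * c := (inv_mul_cancel₀ hc.ne').symm
    _ ≤ _ := mul_le_mul (le_max_left _ _) (h _ (by positivity) ((div_le_one hK).2 hkK)) hc.le (by positivity)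

/-- the price of the sharp cut-off -/
noncomputable def cE : ℝ := exists_cE.choose

theorem one_le_cE : 1 ≤ cE := exists_cE.choose_spec.1

theorem cE_pos : 0 < cE := one_pos.trans_le one_le_cE

theorem le_gw {K : ℝ} (hK : 0 < K) {k : O} (hk : Prim k) (h : nm k ≤ K) : 1 ≤ cE * gw K k :=
  exists_cE.choose_spec.2 K k hK hk h

open Classical in
theorem sum_gw_filter (K : ℝ) {A : Finset O} (h : ∀ k ∈ A, k ≠ 0) :
    ∑ k ∈ A, gw K k = ∑ k ∈ A.filter fun k => Prim k, gw K k :=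
  (Finset.sum_filter_of_ne fun k hk h1 => not_not.1 fun h2 => h1 (gw_of_not K (h k hk) h2)).symm

theorem exists_cG : ∃ C : ℝ, 0 < C ∧ ∀ (K : ℝ) (A : Finset O), 0 < K → (∀ k ∈ A, k ≠ 0) →
    ∑ k ∈ A, gw K k ≤ C * K := by
  classical
  obtain ⟨C₁, hC₁, h₁⟩ := gw_le_rpow (σ := 1 / 2) (by norm_num)
  obtain ⟨C₂, hC₂, h₂⟩ := gw_le_rpow (σ := 2) (by norm_num)
  obtain ⟨D₁, hD₁, g₁⟩ := sum_nm_rpow_le (σ := 1 / 2) (by norm_num)
  obtain ⟨D₂, hD₂, g₂⟩ := sum_nm_rpow_tail (σ := 2) (by norm_num)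
  refine ⟨C₁ * D₁ + C₂ * D₂, by positivity, fun K A hK hA => ?_⟩
  rw [sum_gw_filter K hA, ← Finset.sum_filter_add_sum_filter_not _ fun k => nm k ≤ K, add_mul]
  refine add_le_add ?_ ?_
  · refine (Finset.sum_le_sum fun k hk => h₁ K k hK
      (Prim.ne_zero (Finset.mem_filter.1 (Finset.mem_filter.1 hk).1).2)).trans ?_
    rw [← Finset.mul_sum]
    refine (mul_le_mul_of_nonneg_left (g₁ K _ hK.le fun n hn =>
      ⟨(Finset.mem_filter.1 (Finset.mem_filter.1 hn).1).2, (Finset.mem_filter.1 hn).2⟩)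
      (by positivity)).trans_eq ?_
    rw [mul_mul_mul_comm, ← Real.rpow_add hK]
    norm_num
  · refine (Finset.sum_le_sum fun k hk => h₂ K k hK
      (Prim.ne_zero (Finset.mem_filter.1 (Finset.mem_filter.1 hk).1).2)).trans ?_
    rw [← Finset.mul_sum]
    refine (mul_le_mul_of_nonneg_left (g₂ K _ hK fun n hn =>
      ⟨(Finset.mem_filter.1 (Finset.mem_filter.1 hn).1).2, (not_le.1 (Finset.mem_filter.1 hn).2).le⟩)
      (by positivity)).trans_eq ?_
    rw [mul_mul_mul_comm, ← Real.rpow_add hK]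
    norm_num

/-- the mass of the weight -/
noncomputable def cG : ℝ := exists_cG.choose

theorem cG_pos : 0 < cG := exists_cG.choose_spec.1

theorem sum_gw_le {K : ℝ} (hK : 0 < K) {A : Finset O} (h : ∀ k ∈ A, k ≠ 0) :
    ∑ k ∈ A, gw K k ≤ cG * K := exists_cG.choose_spec.2 K A hK h

theorem poa_sum_le {K : ℝ} (hK : 0 < K) (A : Finset O) : ∑ k ∈ A, gw K k ≤ w0 + cG * K := by
  classical
  have h1 : ∑ k ∈ A.erase 0, gw K k ≤ cG * K := sum_gw_le hK fun k hk => Finset.ne_of_mem_erase hk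
  by_cases h : (0 : O) ∈ A
  · rw [← Finset.add_sum_erase _ _ h, gw_zero]
    linarith
  · rw [Finset.erase_eq_of_notMem h] at h1
    linarith [w0_pos]

theorem summable_gw {K : ℝ} (hK : 0 < K) : Summable (gw K) :=
  summable_of_sum_le (fun k => gw_nonneg K k) (poa_sum_le hK)

theorem tsum_gw_le {K : ℝ} (hK : 0 < K) : ∑' k, gw K k ≤ w0 + cG * K :=
  Real.tsum_le_of_sum_le (fun k => gw_nonneg K k) (poa_sum_le hK)

theorem summable_mul_gw {Ψ : O → ℂ} {B : ℝ} (hB : ∀ y, ‖Ψ y‖ ≤ B) {K : ℝ} (hK : 0 < K) :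
    Summable fun k : O => Ψ k * gw K k := by
  refine Summable.of_norm_bounded ((summable_gw hK).mul_left B) fun k => ?_
  rw [norm_mul, Complex.norm_real, Real.norm_of_nonneg (gw_nonneg K k)]
  exact mul_le_mul_of_nonneg_right (hB k) (gw_nonneg K k)

theorem tsum_mul_gw {Ψ : O → ℂ} {B : ℝ} (hB : ∀ y, ‖Ψ y‖ ≤ B) {K : ℝ} (hK : 0 < K) :
    ∑' k : O, Ψ k * gw K k = w0 * Ψ 0 + ∑' k : Pr, Ψ k * W (nm k / K) := by
  classical
  rw [(summable_mul_gw hB hK).tsum_eq_add_tsum_ite 0, gw_zero, mul_comm]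
  congr 1
  rw [← Subtype.val_injective.tsum_eq (f := fun k : O => if k = 0 then 0 else Ψ k * gw K k)
    (g := fun k : Pr => (k : O))]
  · exact tsum_congr fun k => by rw [if_neg (Pr_prim k).ne_zero, gw_prim _ (Pr_prim k)]
  · intro k hk
    by_cases h0 : k = 0
    · exact absurd (if_pos h0) hk
    by_cases h1 : Prim k
    · exact ⟨⟨k, h1⟩, rfl⟩
    · exact absurd (by simp [gw_of_not K h0 h1]) hk

/-- Poisson summation -/
theorem poisson {Q : O} (hQ : Q ≠ 0) {Ψ : O → ℂ} (hΨ : Per Q Ψ) (hU : UInv Ψ) {K : ℝ} (hK : 0 < K) :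
    ∑' k : O, Ψ k * gw K k = (K / nm Q : ℝ) * ∑' h : O, FT Q Ψ h * gw (nm Q / K) h := by
  obtain ⟨B, hB⟩ := hΨ.bdd hQ
  rw [tsum_mul_gw hB hK, tsum_mul_gw (norm_FT_le hQ hB) (div_pos (nm_pos hQ) hK)]
  exact isW.poisson Q Ψ K hQ hΨ hU hK

/-- far rows -/
theorem gw_far (A : ℕ) (hA : 2 ≤ A) : ∃ C : ℝ, 0 < C ∧ ∀ L H : ℝ, 0 < L → 0 < H →
    ∑' h : O, (if H < nm h then gw L h else 0) ≤ C * H * (L / H) ^ A := by
  classical
  have hA' : (2 : ℝ) ≤ A := by exact_mod_cast hA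
  obtain ⟨C, hC, h⟩ := gw_le_rpow (σ := A) (by linarith)
  obtain ⟨D, hD, g⟩ := sum_nm_rpow_tail (σ := A) (by linarith)
  refine ⟨C * D, by positivity, fun L H hL hH => ?_⟩
  refine Real.tsum_le_of_sum_le (fun k => ?_) fun S => ?_
  · simp only [Pi.zero_apply]
    split_ifs
    exacts [gw_nonneg _ _, le_rfl]
  · rw [← Finset.sum_filter, sum_gw_filter L fun k hk h0 => by
      have := (Finset.mem_filter.1 hk).2
      rw [h0, nm_zero] at this
      linarith]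
    refine (Finset.sum_le_sum fun k hk => h L k hL (Prim.ne_zero (Finset.mem_filter.1 hk).2)).trans ?_
    rw [← Finset.mul_sum]
    refine (mul_le_mul_of_nonneg_left (g H _ hH fun n hn => ⟨(Finset.mem_filter.1 hn).2,
      (Finset.mem_filter.1 (Finset.mem_filter.1 hn).1).2.le⟩) (by positivity)).trans_eq ?_
    rw [Real.rpow_sub hH, Real.rpow_one, Real.rpow_natCast, Real.rpow_natCast, div_pow]
    ring

end Crest.Agent.R27.Z
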