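import Crest.Agent.R27.A.Basic

/-!
Row 27, abstract API (port of the first part of `R17/A/Prim`; owner helper11): primary elements.
-/

set_option autoImplicit false
set_option linter.unusedSectionVars false

namespace Crest.Agent.R27.Ab

variable {R : Type} [CommRing R] [IsDomain R] [IsPrincipalIdealRing R] [Ar R]

/-! ### Primary elements -/

theorem mem_Pr {n : R} : n ∈ Pr R ↔ Prim n := Iff.rfl

theorem Pr_prim (n : Pr R) : Prim (n : R) := n.2

theorem prim_one : Prim (1 : R) := (Pr R).one_mem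

theorem Prim.mul {a b : R} (ha : Prim a) (hb : Prim b) : Prim (a * b) := (Pr R).mul_mem ha hb

theorem Prim.pow {a : R} (ha : Prim a) (k : ℕ) : Prim (a ^ k) := (Pr R).pow_mem ha k

theorem prim_prod {ι : Type*} {s : Finset ι} {f : ι → R} (h : ∀ i ∈ s, Prim (f i)) :
    Prim (∏ i ∈ s, f i) := (Pr R).prod_mem h

theorem Prim.ne_zero {a : R} (ha : Prim a) : a ≠ 0 := Ar.pr_ne a ha

theorem Prim.eq_of_associated {a b : R} (ha : Prim a) (hb : Prim b) (h : Associated a b) : a = b :=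
  Ar.pr_uniq a b ha hb h

theorem Prim.eq_one_of_isUnit {a : R} (ha : Prim a) (hu : IsUnit a) : a = 1 :=
  ha.eq_of_associated prim_one (associated_one_iff_isUnit.2 hu)

theorem exists_unit_prim {n : R} (h : n ≠ 0) : ∃ u m : R, IsUnit u ∧ Prim m ∧ n = u * m := by
  obtain ⟨m, hm, u, hu⟩ := Ar.pr_ex n h
  exact ⟨(u⁻¹ : Rˣ), m, Units.isUnit _, hm, by rw [← hu, mul_comm, mul_assoc]; simp⟩

theorem Prim.of_mul {a b : R} (ha : Prim a) (hab : Prim (a * b)) : Prim b := by
  obtain ⟨u, m, hu, hm, rfl⟩ := exists_unit_prim (right_ne_zero_of_mul hab.ne_zero)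
  have h : a * (u * m) = a * m := hab.eq_of_associated (ha.mul hm)
    ((associated_unit_mul_left m u hu).mul_left a)
  rwa [mul_left_cancel₀ ha.ne_zero h]

theorem Prim.dvd_antisymm {a b : R} (ha : Prim a) (hb : Prim b) (h₁ : a ∣ b) (h₂ : b ∣ a) : a = b := by
  exact ha.eq_of_associated hb (associated_of_dvd_dvd h₁ h₂)

theorem Prim.exists_mul {d n : R} (hd : Prim d) (hn : Prim n) (h : d ∣ n) :
    ∃ m, Prim m ∧ n = d * m := by
  obtain ⟨m, rfl⟩ := h
  exact ⟨m, hd.of_mul hn, rfl⟩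

/-- two distinct primary primes are coprime -/
theorem Prim.coprime_of_ne {p p' : R} (h : Prim p) (h' : Prim p') (hp : Prime p) (hp' : Prime p')
    (hne : p ≠ p') : IsCoprime p p' := by
  refine hp.irreducible.coprime_iff_not_dvd.2 fun hd => hne ?_
  exact h.eq_of_associated h' (hp.irreducible.associated_of_dvd hp'.irreducible hd)

theorem pra_prime_prim {z : R} (hz : Prime z) :
    ∃ p, Prime p ∧ Prim p ∧ Associated p z := by
  obtain ⟨u, p, hu, hp, rfl⟩ := exists_unit_prim hz.ne_zero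
  have : Associated p (u * p) := (associated_unit_mul_left p u hu).symm
  exact ⟨p, this.symm.prime hz, hp, this⟩

theorem pra_exists_prime_dvd {n : R} (hn : Prim n) (h1 : n ≠ 1) :
    ∃ p, Prime p ∧ Prim p ∧ p ∣ n := by
  obtain ⟨z, hz, hd⟩ := WfDvdMonoid.exists_irreducible_factor
    (fun hu => h1 (hn.eq_one_of_isUnit hu)) hn.ne_zero
  obtain ⟨p, hp, hp', ha⟩ := pra_prime_prim hz.prime
  exact ⟨p, hp, hp', ha.dvd.trans hd⟩

theorem pra_nN_lt {p m : R} (hp : Prime p) (hm : m ≠ 0) (k : ℕ) : nN m < nN (p ^ (k + 1) * m) := by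
  have h2 : 2 ≤ nN p := by
    have := two_le_nm hp
    unfold nm at this
    exact_mod_cast this
  have h0 : 0 < nN m := Nat.pos_of_ne_zero fun h => hm (nN_eq_zero.1 h)
  rw [nN_mul, nN_pow]
  have : 1 < nN p ^ (k + 1) := Nat.one_lt_pow (Nat.succ_ne_zero k) h2
  nlinarith

theorem Prim.induction {P : R → Prop} {n : R} (hn : Prim n) (h1 : P 1)
    (hm : ∀ p m, Prime p → Prim p → Prim m → P m → P (p * m)) : P n := by
  induction hN : nN n using Nat.strong_induction_on generalizing n with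
  | _ N ih =>
    by_cases h : n = 1
    · exact h ▸ h1
    obtain ⟨p, hp, hp', hd⟩ := pra_exists_prime_dvd hn h
    obtain ⟨m, hm', rfl⟩ := hp'.exists_mul hn hd
    refine hm p m hp hp' hm' (ih (nN m) ?_ hm' rfl)
    simpa [hN] using pra_nN_lt hp hm'.ne_zero 0

/-- induction over coprime prime powers -/
theorem Prim.induction_coprime {P : R → Prop} {n : R} (hn : Prim n) (h1 : P 1)
    (hm : ∀ p k m, Prime p → Prim p → Prim m → ¬ p ∣ m → P m → P (p ^ (k + 1) * m)) : P n := by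
  induction hN : nN n using Nat.strong_induction_on generalizing n with
  | _ N ih =>
    by_cases h : n = 1
    · exact h ▸ h1
    obtain ⟨p, hp, hp', hd⟩ := pra_exists_prime_dvd hn h
    obtain ⟨k, m, hpm, rfl⟩ := WfDvdMonoid.max_power_factor hn.ne_zero hp.irreducible
    have hm' : Prim m := (hp'.pow k).of_mul hn
    obtain _ | k := k
    · exact absurd (by simpa using hd) hpm
    exact hm p k m hp hp' hm' hpm (ih (nN m) (hN ▸ pra_nN_lt hp hm'.ne_zero k) hm' rfl)

theorem Prim.induction_sqfree {P : R → Prop} {n : R} (hn : Prim n) (hs : Squarefree n) (h1 : P 1)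
    (hm : ∀ p m, Prime p → Prim p → Prim m → Squarefree m → ¬ p ∣ m → P m → P (p * m)) : P n := by
  revert hs
  refine hn.induction (P := fun n => Squarefree n → P n) (fun _ => h1) ?_
  intro p m hp hp' hm' ih hs
  have hsm : Squarefree m := hs.squarefree_of_dvd (dvd_mul_left m p)
  refine hm p m hp hp' hm' hsm ?_ (ih hsm)
  intro hd
  exact hp.not_isUnit (hs p (mul_dvd_mul_left p hd))

theorem Prim.exists_prime_dvd {n : R} (hn : Prim n) (h1 : n ≠ 1) : ∃ p, Prime p ∧ Prim p ∧ p ∣ n := by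
  exact pra_exists_prime_dvd hn h1

theorem Prim.coprime_iff {a : R} (ha : Prim a) (b : R) :
    IsCoprime a b ↔ ∀ p, Prime p → Prim p → p ∣ a → ¬ p ∣ b := by
  constructor
  · intro h p hp _ h₁ h₂
    exact hp.not_isUnit (h.isUnit_of_dvd' h₁ h₂)
  · intro h
    refine isCoprime_of_prime_dvd (fun h0 => ha.ne_zero h0.1) fun z hz h₁ h₂ => ?_
    obtain ⟨p, hp, hp', hpz⟩ := pra_prime_prim hz
    exact h p hp hp' (hpz.dvd.trans h₁) (hpz.dvd.trans h₂)

/-- primary greatest common divisor -/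
theorem Prim.exists_gcd {a : R} (ha : Prim a) (b : R) :
    ∃ g a' b', Prim g ∧ Prim a' ∧ a = g * a' ∧ b = g * b' ∧ IsCoprime a' b' := by
  obtain ⟨x, y, hxy⟩ := IsBezout.gcd_eq_sum a b
  have h₁ := IsBezout.gcd_dvd_left a b
  have h₂ := IsBezout.gcd_dvd_right a b
  obtain ⟨u, g, hu, hg, hug⟩ := exists_unit_prim (ne_zero_of_dvd_ne_zero ha.ne_zero h₁)
  obtain ⟨v, hv⟩ := hu.exists_right_inv
  rw [hug] at h₁ h₂ hxy
  obtain ⟨a', ha', rfl⟩ := hg.exists_mul ha ((dvd_mul_left g u).trans h₁)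
  obtain ⟨b', rfl⟩ := (dvd_mul_left g u).trans h₂
  refine ⟨g, a', b', hg, ha', rfl, rfl, v * x, v * y, ?_⟩
  refine mul_left_cancel₀ hg.ne_zero ?_
  linear_combination v * hxy + g * hv

theorem gcd_unique {g g' a a' b b' : R} (hg : Prim g) (hg' : Prim g') (ha : g * a = g' * a')
    (hb : g * b = g' * b') (h : IsCoprime a b) (h' : IsCoprime a' b') :
    g = g' ∧ a = a' ∧ b = b' := by
  obtain ⟨x, y, hxy⟩ := h
  obtain ⟨x', y', hxy'⟩ := h'
  obtain rfl : g = g' := hg.dvd_antisymm hg'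
    ⟨x' * a + y' * b, by linear_combination -g' * hxy' - x' * ha - y' * hb⟩
    ⟨x * a' + y * b', by linear_combination -g * hxy + x * ha + y * hb⟩
  exact ⟨rfl, mul_left_cancel₀ hg.ne_zero ha, mul_left_cancel₀ hg.ne_zero hb⟩
end Crest.Agent.R27.Ab
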