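import Crest.Agent.R27.Api.Count

/-! Row 27, bundled API (port of `R17/B/SumO`; owner helper11): log-normal sums over `O`.  `φ : ι → O` is any injective
indexing (`id`, `Subtype.val` on `Pr`, …), the coefficients vanish off the PRIMARY elements. -/

set_option autoImplicit false

namespace Crest.Agent.R27.Z

open Complex MeasureTheory Filter Set
open scoped Real Topology ComplexConjugate
open Crest.Agent.R17 (LN Adm DA SS sob_block norm_LN_mul_rpow norm_LN_tail exp_neg_log_sq_le)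
open Crest.Agent.R27.Ab

variable [Bd]

theorem B_count : ∃ C : ℝ, 0 < C ∧ ∀ (X : ℝ) (S : Finset O), (∀ n ∈ S, Prim n ∧ nm n ≤ X) →
    (S.card : ℝ) ≤ C * max X 0 := by
  refine ⟨cc, cc_pos, fun X S hS => ?_⟩
  exact card_le_of_nm_le (le_max_right X 0) fun n hn => ⟨(hS n hn).1, (hS n hn).2.trans (le_max_left X 0)⟩

theorem sob_core {a : ℝ} (ha : 0 < a) : ∃ C : ℝ, 0 < C ∧ ∀ (Y : ℝ) (S : Finset O), 0 < Y →
    (∀ n ∈ S, Prim n) → ∑ n ∈ S, ‖LN a Y 0 (nm n)‖ ≤ C * Y := by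
  classical
  obtain ⟨C, hC, hcount⟩ := B_count
  set E : ℝ := Real.exp (a ^ 2 * 2 ^ 2 / 2) with hEdef
  have hE : 0 < E := Real.exp_pos _
  refine ⟨4 * E * C, by positivity, fun Y S hY hS => ?_⟩
  have hch : ∀ n : O, ∃ k : ℕ, Prim n → nm n ≤ 2 ^ (k + 1) * Y ∧
      ‖LN a Y 0 (nm n)‖ ≤ E * (1 / 4) ^ k := by
    intro n
    by_cases hn : Prim n
    · obtain ⟨k, hk⟩ := sob_block ha hY (nm_pos hn.ne_zero)
      exact ⟨k, fun _ => hk⟩
    · exact ⟨0, fun h => absurd h hn⟩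
  choose k hk using hch
  calc ∑ n ∈ S, ‖LN a Y 0 (nm n)‖ ≤ ∑ n ∈ S, E * (1 / 4 : ℝ) ^ k n :=
        Finset.sum_le_sum fun n hn => (hk n (hS n hn)).2
    _ = ∑ j ∈ S.image k, ((S.filter fun n => k n = j).card : ℝ) * (E * (1 / 4 : ℝ) ^ j) := by
        rw [Finset.sum_comp (fun j => E * (1 / 4 : ℝ) ^ j) k]
        simp only [nsmul_eq_mul]
    _ ≤ ∑ j ∈ S.image k, (2 * E * C * Y) * (1 / 2 : ℝ) ^ j := by
        refine Finset.sum_le_sum fun j _ => ?_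
        have h1 := hcount (2 ^ (j + 1) * Y) (S.filter fun n => k n = j) (by
          intro n hn
          rw [Finset.mem_filter] at hn
          exact ⟨hS n hn.1, hn.2 ▸ (hk n (hS n hn.1)).1⟩)
        rw [max_eq_left (by positivity)] at h1
        refine (mul_le_mul_of_nonneg_right h1 (by positivity)).trans (le_of_eq ?_)
        have : (2 : ℝ) ^ j * (1 / 4) ^ j = (1 / 2) ^ j := by
          rw [← mul_pow]; norm_num
        rw [← this, pow_succ]; ring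
    _ = (2 * E * C * Y) * ∑ j ∈ S.image k, (1 / 2 : ℝ) ^ j := by rw [Finset.mul_sum]
    _ ≤ (2 * E * C * Y) * 2 := by
        refine mul_le_mul_of_nonneg_left ?_ (by positivity)
        have := summable_geometric_two.sum_le_tsum (S.image k) (fun j _ => by positivity)
        rwa [tsum_geometric_two] at this
    _ = 4 * E * C * Y := by ring

/-- comparison with a sum over primary elements of `O` -/
theorem sob_cmp {ι : Type} {φ : ι → O} (hφ : Function.Injective φ) {f : ι → ℝ} {g : O → ℝ}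
    {K B : ℝ} (hK : 0 ≤ K) (hf : ∀ n, 0 ≤ f n) (h0 : ∀ n, ¬ Prim (φ n) → f n = 0)
    (h1 : ∀ n, Prim (φ n) → f n ≤ K * g (φ n))
    (hg : ∀ S : Finset O, (∀ n ∈ S, Prim n) → ∑ n ∈ S, g n ≤ B) :
    Summable f ∧ ∑' n, f n ≤ K * B := by
  classical
  have key : ∀ s : Finset ι, ∑ n ∈ s, f n ≤ K * B := by
    intro s
    calc ∑ n ∈ s, f n = ∑ n ∈ s.filter (fun n => Prim (φ n)), f n := by
          symm
          exact Finset.sum_filter_of_ne fun n _ hn => not_not.1 fun h => hn (h0 n h)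
      _ ≤ ∑ n ∈ s.filter (fun n => Prim (φ n)), K * g (φ n) :=
          Finset.sum_le_sum fun n hn => h1 n (Finset.mem_filter.1 hn).2
      _ = K * ∑ m ∈ (s.filter (fun n => Prim (φ n))).image φ, g m := by
          rw [Finset.sum_image fun x _ y _ h => hφ h, Finset.mul_sum]
      _ ≤ K * B := by
          refine mul_le_mul_of_nonneg_left (hg _ fun m hm => ?_) hK
          obtain ⟨n, hn, rfl⟩ := Finset.mem_image.1 hm
          exact (Finset.mem_filter.1 hn).2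
  exact ⟨summable_of_sum_le hf key, Real.tsum_le_of_sum_le hf key⟩

theorem adm_O {θ σ : ℝ} (h : θ + 1 < σ) : ∃ C : ℝ, 0 < C ∧
    ∀ {ι : Type} (φ : ι → O) (c : ι → ℂ) (M : ℝ), Function.Injective φ → (∀ n, ¬ Prim (φ n) → c n = 0) →
      (∀ n, Prim (φ n) → ‖c n‖ ≤ M * nm (φ n) ^ θ) → 0 ≤ M →
      Adm c (fun n => nm (φ n)) σ ∧ DA c (fun n => nm (φ n)) σ ≤ C * M := by
  have hs := summable_nm_rpow (σ := σ - θ) (by linarith)
  have h0 : ∀ n : O, 0 ≤ nm n ^ (-(σ - θ)) := fun n => Real.rpow_nonneg (nm_nonneg n) _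
  refine ⟨∑' n : Pr, nm n ^ (-(σ - θ)) + 1, add_pos_of_nonneg_of_pos (tsum_nonneg fun n => h0 n) one_pos, ?_⟩
  intro ι φ c M hφ hc0 hc hM
  have := sob_cmp (f := fun n => ‖c n‖ * nm (φ n) ^ (-σ)) (g := fun m => nm m ^ (-(σ - θ))) (K := M)
    (B := ∑' n : Pr, nm n ^ (-(σ - θ))) hφ hM
    (fun n => mul_nonneg (norm_nonneg _) (Real.rpow_nonneg (nm_nonneg _) _))
    (fun n hn => by simp [hc0 n hn]) (fun n hn => by
      have hp := nm_pos hn.ne_zero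
      rw [show -(σ - θ) = θ + -σ by ring, Real.rpow_add hp, ← mul_assoc]
      exact mul_le_mul_of_nonneg_right (hc n hn) (Real.rpow_nonneg hp.le _))
    (fun S hS => sum_le_tsum_Pr (f := fun m => nm m ^ (-(σ - θ))) hs (fun n _ => h0 n) hS)
  refine ⟨⟨fun n hn => nm_pos (Prim.ne_zero (not_not.1 fun h' => hn (hc0 n h'))), this.1⟩, ?_⟩
  refine this.2.trans ?_
  rw [mul_comm]
  gcongr
  linarith

/-- bounded coefficients on primary elements -/
theorem adm_Pr {σ : ℝ} (h : 1 < σ) {c : Pr → ℂ} {M : ℝ} (hc : ∀ n, ‖c n‖ ≤ M) :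
    Adm c (fun n => nm n) σ := by
  obtain ⟨C, -, hC⟩ := adm_O (θ := 0) (σ := σ) (by linarith)
  refine (hC (fun n : Pr => (n : O)) c M Subtype.val_injective (fun n hn => ?_) (fun n _ => ?_)
    ((norm_nonneg _).trans (hc 1))).1
  · exact absurd n.2 hn
  · rw [Real.rpow_zero, mul_one]
    exact hc n

/-- the trivial bound, for ALL `Y > 0` (blocks `Y e^k ≤ N n < Y e^(k+1)`) -/
theorem sum_LN_O {a : ℝ} (ha : 0 < a) (θ : ℝ) : ∃ C : ℝ, 0 < C ∧
    ∀ {ι : Type} (φ : ι → O) (c : ι → ℂ) (M Y t : ℝ), Function.Injective φ →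
      (∀ n, ¬ Prim (φ n) → c n = 0) → (∀ n, Prim (φ n) → ‖c n‖ ≤ M * nm (φ n) ^ θ) → 0 ≤ M → 0 < Y →
      Summable (fun n => ‖c n * LN a Y t (nm (φ n))‖) ∧
      ∑' n, ‖c n * LN a Y t (nm (φ n))‖ ≤ C * M * Y ^ (θ + 1) := by
  obtain ⟨C, hC, hcore⟩ := sob_core ha
  refine ⟨Real.exp (a ^ 2 * θ ^ 2 / 2) * (C * Real.exp (a ^ 2 * θ)), by positivity, ?_⟩
  intro ι φ c M Y t hφ h0 h1 hM hY
  have hY' : 0 < Y * Real.exp (a ^ 2 * θ) := by positivity
  have := sob_cmp (f := fun n => ‖c n * LN a Y t (nm (φ n))‖)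
    (g := fun m => ‖LN a (Y * Real.exp (a ^ 2 * θ)) 0 (nm m)‖)
    (K := M * (Y ^ θ * Real.exp (a ^ 2 * θ ^ 2 / 2))) hφ (by positivity)
    (fun n => norm_nonneg _) (fun n hn => by simp [h0 n hn]) (fun n hn => by
      rw [norm_mul, mul_assoc, ← norm_LN_mul_rpow ha hY (nm_pos hn.ne_zero) t 0 θ]
      have := mul_le_mul_of_nonneg_right (h1 n hn) (norm_nonneg (LN a Y t (nm (φ n))))
      linarith) (fun S hS => hcore _ S hY' hS)
  refine ⟨this.1, this.2.trans (le_of_eq ?_)⟩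
  rw [Real.rpow_add hY, Real.rpow_one]; ring

/-- short sums: any power of `Y` beyond `θ + 1` (use for `Y ≤ 1`) -/
theorem sum_LN_O_small {a θ σ : ℝ} (ha : 0 < a) (h : θ + 1 ≤ σ) : ∃ C : ℝ, 0 < C ∧
    ∀ {ι : Type} (φ : ι → O) (c : ι → ℂ) (M Y t : ℝ), Function.Injective φ →
      (∀ n, ¬ Prim (φ n) → c n = 0) → (∀ n, Prim (φ n) → ‖c n‖ ≤ M * nm (φ n) ^ θ) → 0 ≤ M → 0 < Y →
      ∑' n, ‖c n * LN a Y t (nm (φ n))‖ ≤ C * M * Y ^ σ := by
  obtain ⟨C, hC, H⟩ := sum_LN_O ha (σ - 1)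
  refine ⟨C, hC, ?_⟩
  intro ι φ c M Y t hφ h0 h1 hM hY
  have := (H φ c M Y t hφ h0 (fun n hn => (h1 n hn).trans (mul_le_mul_of_nonneg_left
    (Real.rpow_le_rpow_of_exponent_le (one_le_nm hn.ne_zero) (by linarith)) hM)) hM hY).2
  rwa [sub_add_cancel] at this

/-- tails: coefficients supported at logarithmic distance `≥ Δ` from the centre -/
theorem sum_LN_O_tail {a : ℝ} (ha : 0 < a) (θ : ℝ) : ∃ C : ℝ, 0 < C ∧
    ∀ {ι : Type} (φ : ι → O) (c : ι → ℂ) (M Y t Δ : ℝ), Function.Injective φ →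
      (∀ n, ¬ Prim (φ n) → c n = 0) → (∀ n, Prim (φ n) → ‖c n‖ ≤ M * nm (φ n) ^ θ) → 0 ≤ M → 0 < Y →
      0 ≤ Δ → (∀ n, c n ≠ 0 → Δ ≤ |Real.log (nm (φ n) / Y)|) →
      ∑' n, ‖c n * LN a Y t (nm (φ n))‖ ≤
        C * M * Y ^ (θ + 1) * Real.exp (-(Δ ^ 2 / (4 * a ^ 2))) := by
  have ha' : 0 < √2 * a := by positivity
  obtain ⟨C, hC, H⟩ := sum_LN_O ha' θ
  obtain ⟨C', -, H'⟩ := sum_LN_O ha θ
  refine ⟨C, hC, ?_⟩
  intro ι φ c M Y t Δ hφ h0 h1 hM hY hΔ hs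
  obtain ⟨hS, hB⟩ := H φ c M Y 0 hφ h0 h1 hM hY
  have hS' := (H' φ c M Y t hφ h0 h1 hM hY).1
  calc ∑' n, ‖c n * LN a Y t (nm (φ n))‖
      ≤ ∑' n, ‖c n * LN (√2 * a) Y 0 (nm (φ n))‖ * Real.exp (-(Δ ^ 2 / (4 * a ^ 2))) := by
        refine hS'.tsum_le_tsum (fun n => ?_) (hS.mul_right _)
        by_cases hc : c n = 0
        · simp [hc]
        · rw [norm_mul, norm_mul, mul_assoc]
          refine mul_le_mul_of_nonneg_left ?_ (norm_nonneg _)
          rw [mul_comm]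
          exact norm_LN_tail hΔ (hs n hc) t
    _ ≤ _ := by
        rw [tsum_mul_right]
        exact mul_le_mul_of_nonneg_right hB (Real.exp_pos _).le

/-- tails beyond `Y Z^(±ε)` are negligible -/
theorem sum_LN_O_negl {a ε : ℝ} (ha : 0 < a) (hε : 0 < ε) (θ A : ℝ) : ∃ C : ℝ, 0 < C ∧
    ∀ {ι : Type} (φ : ι → O) (c : ι → ℂ) (M Y t Z : ℝ), Function.Injective φ →
      (∀ n, ¬ Prim (φ n) → c n = 0) → (∀ n, Prim (φ n) → ‖c n‖ ≤ M * nm (φ n) ^ θ) → 0 ≤ M → 0 < Y →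
      1 ≤ Z → (∀ n, c n ≠ 0 → nm (φ n) ≤ Y * Z ^ (-ε) ∨ Y * Z ^ ε ≤ nm (φ n)) →
      ∑' n, ‖c n * LN a Y t (nm (φ n))‖ ≤ C * M * Y ^ (θ + 1) * Z ^ (-A) := by
  obtain ⟨C, hC, H⟩ := sum_LN_O_tail ha θ
  obtain ⟨C', hC', H'⟩ := exp_neg_log_sq_le (c := ε ^ 2 / (4 * a ^ 2)) (by positivity) A
  refine ⟨C * C', by positivity, ?_⟩
  intro ι φ c M Y t Z hφ h0 h1 hM hY hZ hs
  have hZ0 : 0 < Z := by linarith
  have hL : 0 ≤ Real.log Z := Real.log_nonneg hZ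
  have hb := H φ c M Y t (ε * Real.log Z) hφ h0 h1 hM hY (by positivity) (by
    intro n hc
    have hn : Prim (φ n) := not_not.1 fun h => hc (h0 n h)
    have hp := nm_pos hn.ne_zero
    rcases hs n hc with h | h
    · have : Real.log (nm (φ n) / Y) ≤ -(ε * Real.log Z) := by
        rw [← neg_mul, ← Real.log_rpow hZ0]
        refine Real.log_le_log (by positivity) ?_
        rw [div_le_iff₀ hY]; linarith
      exact le_abs.2 (Or.inr (by linarith))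
    · have : ε * Real.log Z ≤ Real.log (nm (φ n) / Y) := by
        rw [← Real.log_rpow hZ0]
        refine Real.log_le_log (by positivity) ?_
        rw [le_div_iff₀ hY]; linarith
      exact le_abs.2 (Or.inl this))
  refine hb.trans ?_
  have h2 := H' Z hZ0
  rw [show -(ε ^ 2 / (4 * a ^ 2)) * Real.log Z ^ 2 = -((ε * Real.log Z) ^ 2 / (4 * a ^ 2)) by
    ring] at h2
  calc _ ≤ C * M * Y ^ (θ + 1) * (C' * Z ^ (-A)) :=
        mul_le_mul_of_nonneg_left h2 (by positivity)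
    _ = _ := by ring

/-- trivial bound for `PS`, `MS`, `PP` (use `PS_eq_SS` etc.) -/
theorem norm_SS_Pr_le {a : ℝ} (ha : 0 < a) : ∃ C : ℝ, 0 < C ∧
    ∀ (c : Pr → ℂ) (M Y t : ℝ), (∀ n, ‖c n‖ ≤ M) → 0 < Y →
      ‖SS c (fun n => nm n) a Y t‖ ≤ C * M * min Y (Y ^ 2) := by
  obtain ⟨C, hC, H⟩ := sum_LN_O ha 0
  obtain ⟨C', hC', H'⟩ := sum_LN_O_small (θ := 0) (σ := 2) ha (by norm_num)
  refine ⟨max C C', lt_max_of_lt_left hC, ?_⟩
  intro c M Y t hc hY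
  have hM : 0 ≤ M := (norm_nonneg _).trans (hc 1)
  have h0 : ∀ n : Pr, ¬ Prim (n : O) → c n = 0 := fun n h => absurd n.2 h
  have h1 : ∀ n : Pr, Prim (n : O) → ‖c n‖ ≤ M * nm (n : O) ^ (0 : ℝ) := fun n _ => by
    simpa using hc n
  obtain ⟨hS, hB⟩ := H (fun n : Pr => (n : O)) c M Y t Subtype.val_injective h0 h1 hM hY
  have hB' := H' (fun n : Pr => (n : O)) c M Y t Subtype.val_injective h0 h1 hM hY
  refine (norm_tsum_le_tsum_norm hS).trans ?_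
  rw [zero_add, Real.rpow_one] at hB
  rw [Real.rpow_two] at hB'
  rcases le_total Y (Y ^ 2) with h | h
  · rw [min_eq_left h]
    exact hB.trans (by gcongr; exact le_max_left _ _)
  · rw [min_eq_right h]
    exact hB'.trans (by gcongr; exact le_max_right _ _)

end Crest.Agent.R27.Z
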