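import Crest.Agent.R27.A.Gauss
import Crest.Agent.R27.Api.Count

/-!
Row 27, bundled API (port of `R17/A/Tau`): the theta coefficient `tau0`.
-/

set_option autoImplicit false

namespace Crest.Agent.R27.Z

open scoped ComplexConjugate
open Crest.Agent.R27.Ab

variable [Bd]

theorem tau_pf {c : O} (hs : Squarefree c) : PowFree 3 c := fun p hp h =>
  hp.not_isUnit (hs p (Dvd.dvd.trans ⟨p, by ring⟩ h))

theorem tau0_eq {c b : O} (hc : Prim c) (hb : Prim b) (hs : Squarefree c) :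
    tau0 (c * b ^ 3) = conj (g3 c) * (Real.sqrt (nm b) : ℂ) := by
  have h : ∃ p : O × O, Prim p.1 ∧ Prim p.2 ∧ Squarefree p.1 ∧ c * b ^ 3 = p.1 * p.2 ^ 3 :=
    ⟨(c, b), hc, hb, hs, rfl⟩
  rw [Ab.tau0, dif_pos h]
  obtain ⟨-, h2, h3, h4⟩ := h.choose_spec
  obtain ⟨e1, e2⟩ := powFree_unique (by norm_num) hb h2 (tau_pf hs) (tau_pf h3) h4
  rw [← e1, ← e2]

theorem tau0_sqfree {c : O} (hc : Prim c) (hs : Squarefree c) : tau0 c = conj (g3 c) := by
  simpa using tau0_eq hc prim_one hs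

@[simp] theorem tau0_one : tau0 1 = 1 := by
  rw [tau0_sqfree prim_one squarefree_one, g3_one, map_one]

theorem exists_of_tau0_ne_zero {n : O} (h : tau0 n ≠ 0) :
    ∃ c b, Prim c ∧ Prim b ∧ Squarefree c ∧ n = c * b ^ 3 := by
  by_contra hn
  exact h (dif_neg fun ⟨p, hp⟩ => hn ⟨p.1, p.2, hp⟩)

theorem sqfree_cube_unique {c c' b b' : O} (hb : Prim b) (hb' : Prim b') (hs : Squarefree c)
    (hs' : Squarefree c') (h : c * b ^ 3 = c' * b' ^ 3) : c = c' ∧ b = b' := by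
  exact powFree_unique (by norm_num) hb hb' (tau_pf hs) (tau_pf hs') h

theorem tau0_mul_cube (n : O) {b : O} (hb : Prim b) :
    tau0 (n * b ^ 3) = tau0 n * (Real.sqrt (nm b) : ℂ) := by
  by_cases h : ∃ c d, Prim c ∧ Prim d ∧ Squarefree c ∧ n = c * d ^ 3
  · obtain ⟨c, d, hc, hd, hs, rfl⟩ := h
    rw [mul_assoc, ← mul_pow, tau0_eq hc (hd.mul hb) hs, tau0_eq hc hd hs, nm_mul,
      Real.sqrt_mul (nm_nonneg d), Complex.ofReal_mul, mul_assoc]
  · have h0 : tau0 n = 0 := by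
      by_contra h0
      exact h (exists_of_tau0_ne_zero h0)
    rw [h0, zero_mul]
    by_contra h1
    obtain ⟨c, d, hc, hd, hs, e⟩ := exists_of_tau0_ne_zero h1
    have hn : Prim n := (hb.pow 3).of_mul (by rw [mul_comm, e]; exact hc.mul (hd.pow 3))
    obtain ⟨c', d', hc', hd', hp, rfl⟩ := hn.exists_powFree (k := 3) (by norm_num)
    rw [mul_assoc, ← mul_pow] at e
    obtain ⟨rfl, -⟩ := powFree_unique (by norm_num) (hd'.mul hb) hd hp (tau_pf hs) e
    exact h ⟨c', d', hc', hd', hs, rfl⟩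

theorem tau_zero {c : O} (hp : PowFree 3 c) (hs : ¬ Squarefree c) : tau0 c = 0 := by
  by_contra h
  obtain ⟨c', b, -, hb, hs', e⟩ := exists_of_tau0_ne_zero h
  obtain ⟨rfl, -⟩ := powFree_unique (by norm_num) prim_one hb hp (tau_pf hs')
    (by rwa [one_pow, mul_one])
  exact hs hs'

theorem tau_ne {p m c : O} (hp : Prime p) (h : ¬ p ∣ m) (hs : Squarefree c) (k : ℕ) :
    ∀ b : O, p ^ (3 * k + 2) * m ≠ c * b ^ 3 := by
  have key : ∀ (k : ℕ) (b : O), p ^ (3 * k + 2) * m = c * b ^ 3 → p ∣ b := fun k b e => by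
    by_contra hb
    have h1 : p ^ 2 ∣ c * b ^ 3 := ⟨p ^ (3 * k) * m, by rw [← e]; ring⟩
    have h2 := hp.pow_dvd_of_dvd_mul_right 2 (fun h3 => hb (hp.dvd_of_dvd_pow h3)) h1
    exact hp.not_isUnit (hs p (by rwa [← sq]))
  induction k with
  | zero =>
    intro b e
    obtain ⟨d, rfl⟩ := key 0 b e
    exact h ⟨c * d ^ 3, mul_left_cancel₀ (pow_ne_zero 2 hp.ne_zero) (by
      rw [show p ^ 2 * m = p ^ (3 * 0 + 2) * m from rfl, e]; ring)⟩
  | succ k ih =>
    intro b e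
    obtain ⟨d, rfl⟩ := key _ b e
    refine ih d (mul_left_cancel₀ (pow_ne_zero 3 hp.ne_zero) ?_)
    rw [show p ^ 3 * (c * d ^ 3) = c * (p * d) ^ 3 by ring, ← e]
    ring

theorem tau0_prime_sq {p : O} (hp : Prime p) {m : O} (h : ¬ p ∣ m) (k : ℕ) :
    tau0 (p ^ (3 * k + 2) * m) = 0 := by
  by_contra h0
  obtain ⟨c, b, -, -, hs, e⟩ := exists_of_tau0_ne_zero h0
  exact tau_ne hp h hs k b e

theorem norm_tau0 {c b : O} (hc : Prim c) (hb : Prim b) (hs : Squarefree c) :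
    ‖tau0 (c * b ^ 3)‖ = Real.sqrt (nm b) := by
  rw [tau0_eq hc hb hs, norm_mul, Complex.norm_conj, norm_g3 hs, one_mul,
    Complex.norm_real, Real.norm_of_nonneg (Real.sqrt_nonneg _)]

theorem norm_tau0_le (n : O) : ‖tau0 n‖ ≤ nm n ^ (1 / 6 : ℝ) := by
  by_cases h : tau0 n = 0
  · rw [h, norm_zero]
    exact Real.rpow_nonneg (nm_nonneg n) _
  · obtain ⟨c, b, hc, hb, hs, rfl⟩ := exists_of_tau0_ne_zero h
    have h0 := nm_nonneg b
    rw [norm_tau0 hc hb hs, Real.sqrt_eq_rpow, nm_mul, nm_pow,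
      show (1 / 2 : ℝ) = (3 : ℕ) * (1 / 6) by norm_num, Real.rpow_natCast_mul h0]
    exact Real.rpow_le_rpow (by positivity)
      (le_mul_of_one_le_left (by positivity) (one_le_nm hc.ne_zero)) (by norm_num)

open Classical in
theorem tsum_tau0 {f : O → ℂ} (h : Summable fun n : Pr => tau0 n * f n) :
    ∑' n : Pr, tau0 n * f n = ∑' b : Pr, (Real.sqrt (nm b) : ℂ) *
      ∑' c : Pr, if Squarefree (c : O) then conj (g3 c) * f (c * b ^ 3) else 0 := by
  rw [tsum_powFree (k := 3) (F := fun n => tau0 n * f n) (by norm_num) h]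
  refine tsum_congr fun b => ?_
  rw [← tsum_mul_left]
  refine tsum_congr fun c => ?_
  by_cases hs : Squarefree (c : O)
  · rw [if_pos hs, if_pos (tau_pf hs), tau0_eq c.2 b.2 hs]
    ring
  · rw [if_neg hs, mul_zero]
    split_ifs with hp
    · rw [tau0_mul_cube _ b.2, tau_zero hp hs, zero_mul, zero_mul]
    · rfl

end Crest.Agent.R27.Z
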